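import Crest.Agent.X212.Sym93.Sa
import Crest.Agent.X212.Fx4.Main
import Crest.Agent.X212.Mi59.Num
import Crest.Agent.X212.Mi59.Main
import Crest.Agent.X212.Mi59.Nf
import Crest.Agent.X212.Sep15.MrA
import Crest.Agent.X212.Mi59.ML
import Crest.Agent.X212.Sep15.Mr
import Crest.Agent.X212.Cay24.Mw
import Crest.Agent.X212.Lw78.EnD
import Crest.Agent.X212.Lw78.EnA
import Crest.Agent.X212.Lw78.EnC
import Crest.Agent.X212.Hp13.Fld
import Crest.Agent.X212.Lw78.EnJ
import Crest.Agent.X212.Wk40.Main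
import Crest.Agent.X212.Kit16.Sl
import Crest.Agent.X212.Nck90.Et
import Crest.Agent.X212.Lw78.En
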