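import Crest.Agent.X212.St29.TowC
import Crest.Agent.X212.St29.TowD
import Crest.Agent.X212.St29.TowE
import Crest.Agent.X212.Rad96.Ift
import Crest.Agent.X212.St29.Tow
import Crest.Agent.X212.Pat85.HdA
import Crest.Agent.X212.Pat85.Hdg
import Crest.Agent.X212.Pat85.L6
import Crest.Agent.X212.Pat85.Mul
import Crest.Agent.X212.Lw78.Sj
import Crest.Agent.X212.Lw78.Gw
import Crest.Agent.X212.Lw78.Es
import Crest.Agent.X212.Lw78.Slf
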